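import Vale.Agent.P319.S2.Iface

/-! P319, exponent `1/2`: the chain by superadditivity of blocks. Statements of the pieces.
Everything is elementary counting in configurations, except PHASE (which uses CORE). -/

namespace Vale.Agent.P319.S2.H920

open Finset Vale.Agent.P319.SC Vale.Agent.P319.SC.H323

set_option linter.all false

variable {V ι : Type} [Fintype V] [DecidableEq V] [DecidableEq ι] {m : ℕ}

/-- the union `X` of classes -/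
def Cl (X : Finset V) (𝒟 : Cfg V ι m) : Prop := ∀ a b, 𝒟.c1 a = 𝒟.c1 b → a ∈ X → b ∈ X

/-- all nondiagonal colours at the point `y` inside its class have density at least `2 ^ (-G)` -/
def HeavyAt (G : ℕ) (𝒟 : Cfg V ι m) (y : V) : Prop :=
  ∀ z, 𝒟.c1 z = 𝒟.c1 y → z ≠ y → (𝒟.cls (𝒟.c1 y)).card < 2 ^ G * 𝒟.val y (𝒟.c2 y z)

/-- all points of `X` -/
def Heavy (X : Finset V) (G : ℕ) (𝒟 : Cfg V ι m) : Prop := ∀ y ∈ X, HeavyAt G 𝒟 y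

/-- `ℰ` (with `l` levels) is obtained from `𝒞` by fixing `s` points of `X` -/
inductive Over (X : Finset V) {m : ℕ} (𝒞 : Cfg V ι m) : (s l : ℕ) → Cfg V ι l → Prop
  | refl : Over X 𝒞 0 m 𝒞
  | fix {s l : ℕ} {ℰ : Cfg V ι (l + 1)} (h : Over X 𝒞 s (l + 1) ℰ) {x : V} (hx : x ∈ X) :
      Over X 𝒞 (s + 1) l (ℰ.fix x)

/-- `ℰ` refines `𝒟` (tuples of at most four points) -/
def Refines {k l : ℕ} (𝒟 : Cfg V ι k) (ℰ : Cfg V ι l) : Prop :=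
  ∀ j ≤ 4, ∀ v w : ℕ → V, ℰ.col j v = ℰ.col j w → 𝒟.col j v = 𝒟.col j w

/-- a block `(u₁, u₂, u₃, y)` over `𝒟`: the class of `y` over `u₁, u₂, u₃` has density at most
`2 ^ (1 - 2 G)` in the class of `y`, and `u₁` is not fixed over `y`, `u₂` is not fixed over `y, u₁`,
`u₃` is not fixed over `y, u₁, u₂`. -/
structure IsBlock (𝒟 : Cfg V ι m) (G : ℕ) (u₁ u₂ u₃ y : V) : Prop where
  hK : (univ.filter fun z => 𝒟.c4 z u₁ u₂ u₃ = 𝒟.c4 y u₁ u₂ u₃).card * 2 ^ (2 * G) ≤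
    2 * (𝒟.cls (𝒟.c1 y)).card
  hy : 2 ≤ (𝒟.cls (𝒟.c1 y)).card
  h1 : 2 ≤ (univ.filter fun z => 𝒟.c2 y z = 𝒟.c2 y u₁).card
  h2 : 2 ≤ (univ.filter fun z => 𝒟.c3 y u₁ z = 𝒟.c3 y u₁ u₂).card
  h3 : 2 ≤ (univ.filter fun z => 𝒟.c4 y u₁ u₂ z = 𝒟.c4 y u₁ u₂ u₃).card

/-- nontrivial classes of configurations with `L` levels have at least `B` points -/
def Bd (V ι : Type) [Fintype V] [DecidableEq V] [DecidableEq ι] (L B : ℕ) : Prop :=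
  ∀ (𝒢 : Cfg V ι L) (a : V), 2 ≤ (𝒢.cls (𝒢.c1 a)).card → B ≤ (𝒢.cls (𝒢.c1 a)).card

/-- **A1 LOW**: a configuration with more levels is one with `L` levels -/
def LowStmt : Prop := ∀ (V ι : Type) [Fintype V] [DecidableEq V] [DecidableEq ι] (L B l : ℕ),
  Bd V ι L B → L ≤ l → Bd V ι l B

/-- **A2 THIN**: few points `v` fix the point `y`. (For such `v`: if `y` does not fix `v`, then
`|class of v| = |class of y| |class of v over y| ≥ B B`; otherwise `v` and `y` fix each other,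
there is at most one such `v` in every class (else a colour of valency one: `Gro.card_ne_one`), and
this class has as many points as the class of `y`.) -/
def ThinStmt : Prop := ∀ (V ι : Type) [Fintype V] [DecidableEq V] [DecidableEq ι] (L B l : ℕ)
  (X : Finset V) (ℱ : Cfg V ι (l + 1)) (y : V), Bd V ι L B → L ≤ l → 4 ≤ l → Cl X ℱ → y ∈ X →
  X.card < B * B → 2 ≤ (ℱ.cls (ℱ.c1 y)).card →
  (X.filter fun v => ((ℱ.fix v).cls ((ℱ.fix v).c1 y)).card = 1).card * (ℱ.cls (ℱ.c1 y)).card ≤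
    X.card

/-- **A3 MEET**: double counting of the pairs `(z, (v₁, v₂, v₃))`, `c2 y z = c2 y y'`. -/
def MeetStmt : Prop := ∀ (V ι : Type) [Fintype V] [DecidableEq V] [DecidableEq ι] (l : ℕ)
  (𝒟 : Cfg V ι l) (y y' u₁ u₂ u₃ : V), 6 ≤ l →
  (univ.filter fun v : V × V × V => 𝒟.c4 y v.1 v.2.1 v.2.2 = 𝒟.c4 y u₁ u₂ u₃ ∧
      𝒟.c4 y' v.1 v.2.1 v.2.2 = 𝒟.c4 y u₁ u₂ u₃).card * 𝒟.val y (𝒟.c2 y y') ≤
    (univ.filter fun v : V × V × V => 𝒟.c4 y v.1 v.2.1 v.2.2 = 𝒟.c4 y u₁ u₂ u₃).card *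
      (univ.filter fun z => 𝒟.c4 z u₁ u₂ u₃ = 𝒟.c4 y u₁ u₂ u₃).card

/-- **A4 STEP**: one more block (three points) shrinks the class of `y` by `G - 5` bits and leaves
it nontrivial. -/
def StepStmt : Prop := ∀ (V ι : Type) [Fintype V] [DecidableEq V] [DecidableEq ι] (L B G k l : ℕ)
  (X : Finset V) (𝒟 : Cfg V ι k) (u₁ u₂ u₃ y : V) (ℰ : Cfg V ι (l + 3)), Bd V ι L B → 5 ≤ G →
  2 * X.card < B * B → L + 3 ≤ k → 6 ≤ k → L ≤ l → 6 ≤ l → y ∈ X → u₁ ∈ X → u₂ ∈ X → u₃ ∈ X →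
  Cl X 𝒟 → HeavyAt G 𝒟 y → IsBlock 𝒟 G u₁ u₂ u₃ y → Refines 𝒟 ℰ → Cl X ℰ →
  2 ≤ (ℰ.cls (ℰ.c1 y)).card →
  ∃ v₁ ∈ X, ∃ v₂ ∈ X, ∃ v₃ ∈ X,
    2 ≤ ((((ℰ.fix v₁).fix v₂).fix v₃).cls ((((ℰ.fix v₁).fix v₂).fix v₃).c1 y)).card ∧
    ((((ℰ.fix v₁).fix v₂).fix v₃).cls ((((ℰ.fix v₁).fix v₂).fix v₃).c1 y)).card * 2 ^ (G - 5) ≤
      (ℰ.cls (ℰ.c1 y)).card

/-- **A5 ITER**: `T` blocks -/
def IterStmt : Prop := ∀ (V ι : Type) [Fintype V] [DecidableEq V] [DecidableEq ι] (L B G T k : ℕ)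
  (X : Finset V) (𝒟 : Cfg V ι k) (u₁ u₂ u₃ y : V), Bd V ι L B → 5 ≤ G →
  2 * X.card < B * B → L + 3 * T + 10 ≤ k → y ∈ X → u₁ ∈ X → u₂ ∈ X → u₃ ∈ X →
  Cl X 𝒟 → HeavyAt G 𝒟 y → IsBlock 𝒟 G u₁ u₂ u₃ y →
  2 ^ ((G - 5) * T) ≤ (𝒟.cls (𝒟.c1 y)).card

/-- **A6 UPMIX**: the upper version of `bad_count` -/
def UpMixStmt : Prop := ∀ (V ι : Type) [Fintype V] [DecidableEq V] [DecidableEq ι] (l D : ℕ)
  (𝒟 : Cfg V ι l) (ρ T : ι) (v₀ : V) (Q : Finset V), 3 ≤ l → BigRank 𝒟 D → 𝒟.c1 v₀ = ρ →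
  T ∈ 𝒟.rels ρ ρ → Q ⊆ 𝒟.cls ρ →
  ((𝒟.cls ρ).filter fun v => 2 * (𝒟.val v₀ T * Q.card) <
      (𝒟.cls ρ).card * (Q.filter fun z => 𝒟.c2 v z = T).card).card *
    (𝒟.val v₀ T * Q.card * D) ≤ 4 * (𝒟.cls ρ).card ^ 3

/-- **A7 BLOCK**: if `𝒟` is heavy and over one more point `x` it is not, then there is a block -/
def BlockStmt : Prop := ∀ (V ι : Type) [Fintype V] [DecidableEq V] [DecidableEq ι] (G l : ℕ)
  (X : Finset V) (ℱ : Cfg V ι (l + 1)) (x : V), 1 ≤ G → 6 ≤ l →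
  (∀ x, BigRank (ℱ.fix x) (2 ^ (6 * G + 5))) → Cl X ℱ → Heavy X G ℱ → x ∈ X →
  ¬ Heavy X G (ℱ.fix x) →
  ∃ u₁ ∈ X, ∃ u₂ ∈ X, ∃ u₃ ∈ X, ∃ y ∈ X, IsBlock ℱ G u₁ u₂ u₃ y

/-- **A8 PHASE**: the configurations over few points cannot all be heavy -/
def PhaseStmt : Prop := ∀ (V ι : Type) [Fintype V] [DecidableEq V] [DecidableEq ι] (G m : ℕ)
  (𝒞 : Cfg V ι m) (ρ : ι), 5 ≤ G → 1004 * G + 10100 ≤ m → 2 ≤ (𝒞.cls ρ).card →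
  Heavy (𝒞.cls ρ) G 𝒞 →
  ∃ (s l : ℕ) (ℱ : Cfg V ι (l + 1)) (x : V), s ≤ 4 * G + 10 ∧ Over (𝒞.cls ρ) 𝒞 s (l + 1) ℱ ∧
    Heavy (𝒞.cls ρ) G ℱ ∧ x ∈ 𝒞.cls ρ ∧ ¬ Heavy (𝒞.cls ρ) G (ℱ.fix x)

/-- **A9 POW**: the trivial bound -/
def PowStmt : Prop := ∀ (V ι : Type) [Fintype V] [DecidableEq V] [DecidableEq ι] (m : ℕ)
  (𝒞 : Cfg V ι m) (a : V), 2 ≤ (𝒞.cls (𝒞.c1 a)).card → 2 ^ m ≤ 2 ^ 4 * (𝒞.cls (𝒞.c1 a)).card

end Vale.Agent.P319.S2.H920
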