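import Vale.Agent.P319.S2.H920.MainB
import Vale.Agent.P319.S2.H323.Phase

/-! P319, exponent `1/2`: `PhaseStmt` from `PH.phase` of helper323. -/

namespace Vale.Agent.P319.S2.H920

open Finset Vale.Agent.P319.SC Vale.Agent.P319.SC.H323

set_option linter.all false

theorem hv_of {V ι : Type} [Fintype V] [DecidableEq V] [DecidableEq ι] {m : ℕ} {X : Finset V}
    {G : ℕ} {𝒟 : Cfg V ι m} (h : Heavy X G 𝒟) : PH.Hv X G 𝒟 := by
  intro a ha z hz h1 h2
  exact (h a ha z h1.symm (Ne.symm h2)).le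

/-- **A8** -/
theorem phaseStmt (hCore : CoreStmt) (hD : DegStmt) : PhaseStmt := by
  intro V ι _ _ _ G m 𝒞 ρ hG hm h2 hH
  by_contra hcon
  have key : ∀ (s l : ℕ) (ℰ : Cfg V ι l), Over (𝒞.cls ρ) 𝒞 s l ℰ → s ≤ 4 * G + 10 →
      Heavy (𝒞.cls ρ) G ℰ := by
    intro s l ℰ h
    induction h with
    | refl => intro _; exact hH
    | @fix s l ℰ h x hx ih =>
      intro hs
      by_contra hn
      exact hcon ⟨s, l, ℰ, x, by omega, h, ih (by omega), hx, hn⟩
  have key2 : ∀ (d s l : ℕ) (ℰ : Cfg V ι l), Over (𝒞.cls ρ) 𝒞 s l ℰ → s + d ≤ 4 * G + 10 →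
      PH.AH (𝒞.cls ρ) G d l ℰ := by
    intro d
    induction d with
    | zero =>
      intro s l ℰ h hs
      have := hv_of (key s l ℰ h (by omega))
      cases l <;> exact this
    | succ d ih =>
      intro s l ℰ h hs
      cases l with
      | zero => exact hv_of (key s 0 ℰ h (by omega))
      | succ l => exact ⟨hv_of (key s _ ℰ h (by omega)),
          fun x hx => ih (s + 1) l (ℰ.fix x) (Over.fix h hx) (by omega)⟩
  obtain ⟨x, hx⟩ : (𝒞.cls ρ).Nonempty := card_pos.1 (by omega)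
  have hxρ := (𝒞.mem_cls _ _).1 hx
  refine PH.phase hCore hD (G := G) (by omega) 𝒞 (X := 𝒞.cls ρ) (Cl.cls 𝒞 ρ) (by omega)
    (key2 _ 0 m 𝒞 Over.refl (by omega)) hx ?_
  rw [hxρ]
  exact h2

end Vale.Agent.P319.S2.H920
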