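import Vale.Agent.P319.S2.H920.Spec
import Vale.Agent.P319.SC.H773.Main34
import Vale.Agent.P319.SC.Gro

/-! P319, exponent `1/2`: MAIN, the accounting `m ^ 2 ≤ C log n` from the pieces. -/

namespace Vale.Agent.P319.S2.H920

open Finset Vale.Agent.P319.SC Vale.Agent.P319.SC.H323

set_option linter.all false

variable {V ι : Type} [Fintype V] [DecidableEq V] [DecidableEq ι] {m : ℕ}

theorem Over.levels {X : Finset V} {𝒞 : Cfg V ι m} {s l : ℕ} {ℰ : Cfg V ι l}
    (h : Over X 𝒞 s l ℰ) : s + l = m := by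
  induction h with
  | refl => omega
  | fix h hx ih => omega

theorem Cl.fix {X : Finset V} {𝒟 : Cfg V ι (m + 1)} (hm : 1 ≤ m) (h : Cl X 𝒟) (x : V) :
    Cl X (𝒟.fix x) := by
  intro a b hab ha
  rw [𝒟.fix_c1 hm, 𝒟.fix_c1 hm] at hab
  exact h a b (𝒟.c1_of_c2 (by omega) hab).2 ha

theorem Cl.cls (𝒞 : Cfg V ι m) (ρ : ι) : Cl (𝒞.cls ρ) 𝒞 := by
  intro a b hab ha
  rw [𝒞.mem_cls] at ha ⊢
  rw [← hab, ha]

theorem Cl.sub {X : Finset V} {𝒟 : Cfg V ι m} (h : Cl X 𝒟) {y : V} (hy : y ∈ X) :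
    𝒟.cls (𝒟.c1 y) ⊆ X := by
  intro b hb
  exact h y b ((𝒟.mem_cls _ _).1 hb).symm hy

theorem Over.cl {X : Finset V} {𝒞 : Cfg V ι m} (hX : Cl X 𝒞) {s l : ℕ} {ℰ : Cfg V ι l}
    (h : Over X 𝒞 s l ℰ) (hl : 1 ≤ l) : Cl X ℰ := by
  induction h with
  | refl => exact hX
  | fix h hx ih => exact (ih (by omega)).fix hl _

theorem main_chain (hPow : PowStmt) (hIter : IterStmt) (hBlock : BlockStmt) (hPhase : PhaseStmt)
    (hD : DegStmt) (V ι : Type) [Fintype V] [DecidableEq V] [DecidableEq ι] :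
    ∀ (m : ℕ) (𝒞 : Cfg V ι m) (a : V), 2 ≤ (𝒞.cls (𝒞.c1 a)).card →
      2 ^ (m ^ 2 / 1048576) ≤ (𝒞.cls (𝒞.c1 a)).card := by
  intro m
  induction m using Nat.strong_induction_on with
  | _ m ih =>
  intro 𝒞 a h2
  rcases Nat.lt_or_ge m 524289 with hm | hm
  · rcases Nat.lt_or_ge m 8 with h8 | h8
    · have : m ^ 2 / 1048576 = 0 := by
        refine Nat.div_eq_of_lt ?_
        calc m ^ 2 < 8 ^ 2 := Nat.pow_lt_pow_left h8 (by norm_num)
          _ ≤ 1048576 := by norm_num
      rw [this, pow_zero]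
      omega
    · have e1 : m ^ 2 / 1048576 ≤ m / 2 := by
        have : m ^ 2 ≤ m * 524288 := by
          rw [pow_two]
          exact Nat.mul_le_mul_left _ (by omega)
        calc m ^ 2 / 1048576 ≤ (m * 524288) / 1048576 := Nat.div_le_div_right this
          _ = m / 2 := by
            rw [show (1048576 : ℕ) = 2 * 524288 by norm_num]
            exact Nat.mul_div_mul_right _ _ (by norm_num)
      have e2 := hPow V ι m 𝒞 a h2
      have e3 : 2 ^ 4 * 2 ^ (m ^ 2 / 1048576) ≤ 2 ^ m := by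
        rw [← pow_add]
        exact Nat.pow_le_pow_right (by norm_num) (by omega)
      have e4 := e3.trans e2
      exact Nat.le_of_mul_le_mul_left e4 (by norm_num)
  · set G := m / 2000 with hG
    set T := m / 16 with hT
    set X := 𝒞.cls (𝒞.c1 a) with hX
    by_cases hH : Heavy X G 𝒞
    · obtain ⟨s, l, ℱ, x, hs, hover, hheavy, hx, hnot⟩ :=
        hPhase V ι G m 𝒞 (𝒞.c1 a) (by omega) (by omega) h2 hH
      have hlev := hover.levels
      have hcl : Cl X ℱ := hover.cl (Cl.cls 𝒞 _) (by omega)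
      have hbig : ∀ x, BigRank (ℱ.fix x) (2 ^ (6 * G + 5)) := by
        intro x A k1 k2 k3
        refine le_trans (Nat.pow_le_pow_right (by norm_num) ?_)
          (bigRank_of hD (by omega) (ℱ.fix x) A k1 k2 k3)
        omega
      obtain ⟨u₁, h1, u₂, h2', u₃, h3, y, hy, hb⟩ :=
        hBlock V ι G l X ℱ x (by omega) (by omega) hbig hcl hheavy hx hnot
      set L := m - 4 * G - 3 * T - 30 with hL
      have hL5 : 4 * m ≤ 5 * L := by omega
      set B := 2 ^ (L ^ 2 / 1048576) with hB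
      by_cases hXB : 2 * X.card < B * B
      · have key := hIter V ι L B G T (l + 1) X ℱ u₁ u₂ u₃ y
          (fun 𝒢 a h => ih L (by omega) 𝒢 a h) (by omega) hXB (by omega) hy h1 h2' h3 hcl
          (hheavy y hy) hb
        refine le_trans (Nat.pow_le_pow_right (by norm_num) ?_)
          (key.trans (card_le_card (hcl.sub hy)))
        refine Nat.div_le_of_le_mul ?_
        have e1 : m ≤ 4000 * (G - 5) := by omega
        have e2 : m ≤ 32 * T := by omega
        calc m ^ 2 = m * m := pow_two m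
          _ ≤ (4000 * (G - 5)) * (32 * T) := Nat.mul_le_mul e1 e2
          _ = 128000 * ((G - 5) * T) := by ring
          _ ≤ 1048576 * ((G - 5) * T) := Nat.mul_le_mul_right _ (by norm_num)
      · rw [not_lt] at hXB
        have e1 : B * B = 2 ^ (2 * (L ^ 2 / 1048576)) := by
          rw [hB, ← pow_add]
          congr 1
          ring
        have e2 : m ^ 2 / 1048576 + 1 ≤ 2 * (L ^ 2 / 1048576) := by
          have e3 : 16 * m ^ 2 ≤ 25 * L ^ 2 := by
            have := Nat.mul_le_mul hL5 hL5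
            calc 16 * m ^ 2 = 4 * m * (4 * m) := by ring
              _ ≤ 5 * L * (5 * L) := this
              _ = 25 * L ^ 2 := by ring
          have e4 : 524289 ^ 2 ≤ m ^ 2 := Nat.pow_le_pow_left hm 2
          norm_num at e4
          omega
        have e5 : 2 * 2 ^ (m ^ 2 / 1048576) ≤ 2 * X.card := by
          calc 2 * 2 ^ (m ^ 2 / 1048576) = 2 ^ (m ^ 2 / 1048576 + 1) := by rw [pow_succ]; ring
            _ ≤ 2 ^ (2 * (L ^ 2 / 1048576)) := Nat.pow_le_pow_right (by norm_num) e2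
            _ = B * B := e1.symm
            _ ≤ 2 * X.card := hXB
        omega
    · unfold Heavy HeavyAt at hH
      push Not at hH
      obtain ⟨y, hy, z, hz, hzy, hle⟩ := hH
      have hy' := (𝒞.mem_cls _ _).1 hy
      obtain ⟨m', rfl⟩ : ∃ m', m = m' + 1 := ⟨m - 1, by omega⟩
      have e1 : 2 ≤ 𝒞.val y (𝒞.c2 y z) := by
        have k1 := 𝒞.val_pos y z
        have k2 : 𝒞.val y (𝒞.c2 y z) ≠ 1 :=
          Gro.card_ne_one 𝒞 (by omega) rfl hz hzy.symm
        omega
      have e2 : (𝒞.fix y).cls ((𝒞.fix y).c1 z) = (𝒞.fix y).cls (𝒞.c2 y z) := by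
        rw [𝒞.fix_c1 (by omega)]
      have e3 := ih m' (by omega) (𝒞.fix y) z (by
        rw [e2, ← 𝒞.val_eq_fix (by omega)]; exact e1)
      rw [e2, ← 𝒞.val_eq_fix (by omega)] at e3
      have e4 : 2 ^ ((m' + 1) ^ 2 / 1048576) ≤ 2 ^ G * 2 ^ (m' ^ 2 / 1048576) := by
        rw [← pow_add]
        refine Nat.pow_le_pow_right (by norm_num) ?_
        have : (m' + 1) ^ 2 = m' ^ 2 + 2 * m' + 1 := by ring
        rw [this]
        omega
      refine e4.trans ((Nat.mul_le_mul_left _ e3).trans ?_)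
      rw [hy'] at hle
      exact hle

/-- **MAIN** -/
theorem main12_of (hPow : PowStmt) (hIter : IterStmt) (hBlock : BlockStmt) (hPhase : PhaseStmt)
    (hD : DegStmt) : Main12Stmt := by
  refine ⟨2097152, ?_⟩
  intro V ι _ _ _ m 𝒞 hn hom
  have hlogn : 1 ≤ Nat.log 2 (Fintype.card V) := Nat.log_pos (by norm_num) hn
  obtain ⟨x0⟩ : Nonempty V := Fintype.card_pos_iff.1 (by omega)
  have hcls : 𝒞.cls (𝒞.c1 x0) = univ := by
    ext a
    simp [Cfg.cls, hom a x0]
  have h2 : 2 ≤ (𝒞.cls (𝒞.c1 x0)).card := by rw [hcls, card_univ]; exact hn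
  have key := main_chain hPow hIter hBlock hPhase hD V ι m 𝒞 x0 h2
  rw [hcls, card_univ] at key
  have k2 : m ^ 2 / 1048576 ≤ Nat.log 2 (Fintype.card V) := by
    rw [Nat.le_log_iff_pow_le (by norm_num) (by omega)]
    exact key
  omega

end Vale.Agent.P319.S2.H920
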